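/-
R335/KS/Var: a minimising determinant consists of eigenfunctions (helper77)
-/
import Crest.Agent.R335.Blocks
import Crest.Agent.R335.T.Pot

set_option autoImplicit false
set_option linter.unusedSectionVars false
set_option linter.unusedVariables false
set_option linter.unusedSimpArgs false

noncomputable section

namespace Crest.Agent.R335

open MeasureTheory Set Filter Topology Metric
open scoped ENNReal
open Crest.MathPhysics.ThreeBody

section general
variable {E : Type} [NormedAddCommGroup E] [NormedSpace ℝ E] [FiniteDimensional ℝ E]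
  [MeasureSpace E] [BorelSpace E] [(volume : Measure E).IsAddHaarMeasure]
  {ι : Type} [Fintype ι] {b : ι → E} {U f f' g : E → ℝ}

theorem ks_ip_comm (f g : E → ℝ) : ip f g = ip g f := by
  simp only [ip, mul_comm]

theorem ks_ip_lin_left (hf : MemLp f 2 volume) (hf' : MemLp f' 2 volume) (hg : MemLp g 2 volume)
    (s t : ℝ) : ip (fun x => s * f x + t * f' x) g = s * ip f g + t * ip f' g := by
  have i1 : Integrable fun x => f x * g x := hf.integrable_mul hg
  have i2 : Integrable fun x => f' x * g x := hf'.integrable_mul hg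
  rw [ip, ip, ip, ← integral_const_mul, ← integral_const_mul,
    ← integral_add (i1.const_mul s) (i2.const_mul t)]
  exact integral_congr_ae (.of_forall fun x => by ring)

theorem ks_qf_lin_left (hU : ∀ f g, H1 b f → H1 b g → Integrable fun x => U x * f x * g x)
    (hf : H1 b f) (hf' : H1 b f') (hg : H1 b g) (s t : ℝ) :
    qf b U (fun x => s * f x + t * f' x) g = s * qf b U f g + t * qf b U f' g := by
  have e : ∫ x, U x * (s * f x + t * f' x) * g x =
      s * (∫ x, U x * f x * g x) + t * ∫ x, U x * f' x * g x := by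
    rw [← integral_const_mul, ← integral_const_mul,
      ← integral_add ((hU _ _ hf hg).const_mul s) ((hU _ _ hf' hg).const_mul t)]
    exact integral_congr_ae (.of_forall fun x => by ring)
  rw [qf, qf, qf, e, (hf.const_mul s).dir_add_left (hf'.const_mul t) hg,
    hf.hl.dir_const_mul_left, hf'.hl.dir_const_mul_left]
  ring

theorem ks_qf_lin (hU : ∀ f g, H1 b f → H1 b g → Integrable fun x => U x * f x * g x)
    (hf : H1 b f) (hg : H1 b g) (s t : ℝ) :
    qf b U (fun x => s * f x + t * g x) (fun x => s * f x + t * g x) =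
      s ^ 2 * qf b U f f + 2 * s * t * qf b U f g + t ^ 2 * qf b U g g := by
  have h := (hf.const_mul s).add (hg.const_mul t)
  rw [ks_qf_lin_left hU hf hg h, qf_comm U f, qf_comm U g, ks_qf_lin_left hU hf hg hf,
    ks_qf_lin_left hU hf hg hg, qf_comm U g f]
  ring

theorem ks_quad {β γ : ℝ} (h : ∀ t : ℝ, 0 ≤ 2 * t * β + t ^ 2 * γ) : β = 0 := by
  have h1 := discrim_le_zero (a := γ) (b := 2 * β) (c := 0) fun t => by
    have := h t
    linarith
  rw [discrim] at h1
  nlinarith [sq_nonneg β]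

/-- The first variation. -/
theorem ks_first (hU : ∀ f g, H1 b f → H1 b g → Integrable fun x => U x * f x * g x)
    (hf : H1 b f) (hg : H1 b g) {e : ℝ} (he : qf b U f f = e * ip f f)
    (h : ∀ t : ℝ, e * ip (fun x => 1 * f x + t * g x) (fun x => 1 * f x + t * g x) ≤
      qf b U (fun x => 1 * f x + t * g x) fun x => 1 * f x + t * g x) :
    qf b U f g = e * ip f g := by
  refine sub_eq_zero.1 (ks_quad (γ := qf b U g g - e * ip g g) fun t => ?_)
  have h1 := h t
  rw [ks_qf_lin hU hf hg, ip_lin hf.1 hg.1, he] at h1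
  linarith

/-- The homogeneous form of a minimum property. -/
theorem ks_hom (hf : H1 b f) {e : ℝ}
    (h : ∀ c : ℝ, ip (fun x => c * f x) (fun x => c * f x) = 1 →
      e ≤ qf b U (fun x => c * f x) fun x => c * f x) : e * ip f f ≤ qf b U f f := by
  have hn : 0 ≤ ip f f := integral_nonneg fun x => mul_self_nonneg _
  rcases hn.eq_or_lt with h0 | h0
  · have h1 : (fun x => f x * f x) =ᵐ[volume] 0 :=
      (integral_eq_zero_iff_of_nonneg (fun x => mul_self_nonneg _) (hf.1.integrable_mul hf.1)).1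
        h0.symm
    have h2 : f =ᵐ[volume] fun x => 0 * f x := h1.mono fun x hx => by
      simp only [zero_mul]
      exact mul_self_eq_zero.1 hx
    rw [qf_congr h2 (.refl _ _), qf_const_mul_left hf, ← h0, mul_zero, zero_mul]
  · have hs : (√(ip f f))⁻¹ * (√(ip f f))⁻¹ = (ip f f)⁻¹ := by
      rw [← mul_inv, Real.mul_self_sqrt hn]
    have h1 := h (√(ip f f))⁻¹ (by
      have : ip (fun x => (√(ip f f))⁻¹ * f x) (fun x => (√(ip f f))⁻¹ * f x) =
          (√(ip f f))⁻¹ * (√(ip f f))⁻¹ * ip f f := by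
        rw [ip, ip, ← integral_const_mul]
        exact integral_congr_ae (.of_forall fun x => by ring)
      rw [this, hs, inv_mul_cancel₀ h0.ne'])
    rw [qf_const_mul_left hf, qf_comm, qf_const_mul_left hf, ← mul_assoc, hs,
      le_inv_mul_iff₀ h0] at h1
    linarith

end general

/-- Tensor product of three orbitals. -/
def ksT (f g h : X → ℝ) (p : Z) : ℝ := f p.1 * (g p.2.1 * h p.2.2)

variable {v f g h f' g' h' : X → ℝ}

theorem ksT_h1 (hf : H1 eX f) (hg : H1 eX g) (hh : H1 eX h) : H1 eZ (ksT f g h) :=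
  (hf.tensor (hg.tensor hh).1).1

theorem ksT_ip (f g h f' g' h' : X → ℝ) :
    ip (ksT f g h) (ksT f' g' h') = ip f f' * (ip g g' * ip h h') := by
  rw [← ip_tensor g g' h h']
  exact ip_tensor f f' (fun y : Y => g y.1 * h y.2) fun y : Y => g' y.1 * h' y.2

theorem ks_v3_int (hv : IsSumClassPotential v) (F G : Z → ℝ) (hF : H1 eZ F) (hG : H1 eZ G) :
    Integrable fun p => v3 v p * F p * G p := by
  obtain ⟨i1, i2, i3⟩ := sumClass_integrable3 hv hF hG
  simp only [v3, add_mul]
  exact (i1.add i2).add i3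

theorem ksT_qf (hv : IsSumClassPotential v) (hf : H1 eX f) (hg : H1 eX g) (hh : H1 eX h)
    (hf' : H1 eX f') (hg' : H1 eX g') (hh' : H1 eX h') :
    qf eZ (v3 v) (ksT f g h) (ksT f' g' h') = qf eX v f f' * (ip g g' * ip h h') +
      ip f f' * (qf eX v g g' * ip h h') + ip f f' * (ip g g' * qf eX v h h') := by
  obtain ⟨i1, i2, i3⟩ := sumClass_integrable3 hv (ksT_h1 hf hg hh) (ksT_h1 hf' hg' hh')
  have i12 : Integrable fun p : Z => v p.1 * ksT f g h p * ksT f' g' h' p +
      v p.2.1 * ksT f g h p * ksT f' g' h' p := i1.add i2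
  have d1 : dir eZ (ksT f g h) (ksT f' g' h') =
      dir eX f f' * ip (fun y : Y => g y.1 * h y.2) (fun y : Y => g' y.1 * h' y.2) +
        ip f f' * dir eY (fun y : Y => g y.1 * h y.2) (fun y : Y => g' y.1 * h' y.2) :=
    H1.dir_tensor hf hf' (hg.tensor hh).1 (hg'.tensor hh').1
  have d2 : dir eY (fun y : Y => g y.1 * h y.2) (fun y : Y => g' y.1 * h' y.2) =
      dir eX g g' * ip h h' + ip g g' * dir eX h h' := H1.dir_tensor hg hg' hh hh'
  have e1 : ∫ p : Z, v p.1 * ksT f g h p * ksT f' g' h' p =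
      (∫ x, v x * f x * f' x) * (ip g g' * ip h h') := by
    rw [show (∫ x, v x * f x * f' x) = ip (fun x => v x * f x) f' from rfl, ← ksT_ip]
    exact integral_congr_ae (.of_forall fun p => by simp only [ksT]; ring)
  have e2 : ∫ p : Z, v p.2.1 * ksT f g h p * ksT f' g' h' p =
      ip f f' * ((∫ x, v x * g x * g' x) * ip h h') := by
    rw [show (∫ x, v x * g x * g' x) = ip (fun x => v x * g x) g' from rfl, ← ksT_ip]
    exact integral_congr_ae (.of_forall fun p => by simp only [ksT]; ring)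
  have e3 : ∫ p : Z, v p.2.2 * ksT f g h p * ksT f' g' h' p =
      ip f f' * (ip g g' * ∫ x, v x * h x * h' x) := by
    rw [show (∫ x, v x * h x * h' x) = ip (fun x => v x * h x) h' from rfl, ← ksT_ip]
    exact integral_congr_ae (.of_forall fun p => by simp only [ksT]; ring)
  simp only [qf, v3, add_mul]
  rw [integral_add i12 i3, integral_add i1 i2, e1, e2, e3, d1, d2, ip_tensor]
  ring

/-- The minimum property on determinants. -/
theorem ks_det (hv : IsSumClassPotential v) {e : ℝ}
    (hmin : ∀ B : Z → ℝ, H1 eZ B → Anti12 B → ip B B = 1 → e ≤ qf eZ (v3 v) B B)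
    (hf : H1 eX f) (hg : H1 eX g) (hh : H1 eX h) (ho : ip f g = 0) :
    e * (ip f f * ip g g * ip h h) ≤ qf eX v f f * ip g g * ip h h +
      ip f f * qf eX v g g * ip h h + ip f f * ip g g * qf eX v h h := by
  have t1 := ksT_h1 hf hg hh
  have t2 := ksT_h1 hg hf hh
  have hB := (t1.const_mul 1).add (t2.const_mul (-1))
  have h1 := ks_hom (U := v3 v) hB (e := e) fun c hc => hmin _ (hB.const_mul c) (fun x y z => by
    simp only [ksT]
    ring) hc
  rw [ks_qf_lin (ks_v3_int hv) t1 t2, ip_lin t1.1 t2.1, ksT_qf hv hf hg hh hf hg hh,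
    ksT_qf hv hf hg hh hg hf hh, ksT_qf hv hg hf hh hg hf hh, ksT_ip, ksT_ip, ksT_ip,
    ks_ip_comm g f, ho] at h1
  linarith

theorem ks_eig {P b : X → ℝ} (hv : IsSumClassPotential v) (hP : H1 eX P) (hb : H1 eX b)
    (nP : ip P P = 2) (nb : ip b b = 1) (ho : ip P b = 0)
    (hmin : ∀ B : Z → ℝ, H1 eZ B → Anti12 B → ip B B = 1 →
      qf eX v P P + qf eX v b b ≤ qf eZ (v3 v) B B) :
    ∃ e1 e2 : ℝ, (∀ φ, H1 eX φ → qf eX v P φ = e1 * ip P φ) ∧
      ∀ φ, H1 eX φ → qf eX v b φ = e2 * ip b φ := by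
  have hU : ∀ f g, H1 eX f → H1 eX g → Integrable fun x => v x * f x * g x :=
    fun f g hf hg => sumClass_integrable hv hf hg
  have e1 : ∀ φ, H1 eX φ → qf eX v P φ = qf eX v P P / 2 * ip P φ := fun φ hφ => by
    refine ks_first hU hP hφ (by rw [nP]; ring) fun t => ?_
    have h1 := ks_det hv hmin hP hb ((hP.const_mul 1).add (hφ.const_mul t)) ho
    rw [nP, nb] at h1
    linarith
  have e2 : ∀ φ, H1 eX φ → ip P φ = 0 → qf eX v b φ = qf eX v b b * ip b φ := fun φ hφ h0 => by
    refine ks_first hU hb hφ (by rw [nb, mul_one]) fun t => ?_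
    have h1 := ks_det hv hmin hP ((hb.const_mul 1).add (hφ.const_mul t)) hP (by
      rw [ks_ip_comm, ks_ip_lin_left hb.1 hφ.1 hP.1, ks_ip_comm b, ks_ip_comm φ, ho, h0]
      ring)
    rw [nP] at h1
    linarith
  refine ⟨_, qf eX v b b, e1, fun φ hφ => ?_⟩
  have h1 := e2 _ ((hφ.const_mul 1).add (hP.const_mul (-(ip P φ / 2)))) (by
    rw [ks_ip_comm, ks_ip_lin_left hφ.1 hP.1 hP.1, ks_ip_comm φ, nP]
    ring)
  rw [qf_comm, ks_qf_lin_left hU hφ hP hb, e1 b hb, ks_ip_comm b, ks_ip_lin_left hφ.1 hP.1 hb.1,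
    ho] at h1
  rw [qf_comm, ks_ip_comm b]
  linarith

end Crest.Agent.R335
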