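/-
R335/KS/Gap: the gap of the two eigenvalues is `δ` (helper77)
-/
import Crest.Agent.R335.Blocks
import Crest.Agent.R335.T.Pot

set_option autoImplicit false
set_option linter.unusedSectionVars false
set_option linter.unusedVariables false
set_option linter.unusedSimpArgs false

noncomputable section

namespace Crest.Agent.R335

open MeasureTheory Set Filter Topology Metric
open scoped ENNReal
open Crest.MathPhysics.ThreeBody

/-- An odd test function, nonnegative on the upper half space, equal to `z` on a ball. -/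
theorem ks_odd_tst (R : ℝ) : ∃ φ : X → ℝ, Tst φ ∧ (∀ x, φ (rf x) = -φ x) ∧
    (∀ x : X, 0 ≤ x 2 * φ x) ∧ ∀ x : X, ‖x‖ ≤ R → φ x = x 2 := by
  obtain ⟨χ, h1, h2, h3⟩ := exists_tst_one (E := X) R
  obtain ⟨L, σ, s, hL, -⟩ := sym_rf.ex
  have hr : ContDiff ℝ 1 fun x => χ (rf x) := by
    simp only [← hL]
    exact h1.1.comp L.contDiff
  have hc : ContDiff ℝ 1 fun x : X => x 2 := (EuclideanSpace.proj (2 : Fin 3) : X →L[ℝ] ℝ).contDiff
  refine ⟨fun x => x 2 * χ (rf x) * χ x, ⟨(hc.mul hr).mul h1.1, h1.2.mul_left⟩, fun x => ?_,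
    fun x => ?_, fun x hx => ?_⟩
  · simp only [rf_rf, rf_two]
    ring
  · have := mul_nonneg (mul_self_nonneg (x 2)) (mul_nonneg (h2 (rf x)).1 (h2 x).1)
    simp only
    linarith
  · simp only [h3 x hx, h3 (rf x) (by rwa [norm_rf]), mul_one]

theorem ks_gap {δ e1 e2 : ℝ} {v P b R : X → ℝ} (hv : IsSumClassPotential v) (hC : Cert δ P b R)
    (hP : ∀ᵐ x : X, 0 < P x) (h1 : ∀ φ, H1 eX φ → qf eX v P φ = e1 * ip P φ)
    (h2 : ∀ φ, H1 eX φ → qf eX v b φ = e2 * ip b φ) : e2 = e1 + δ := by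
  have hzb : ∀ x : X, 0 ≤ x 2 * b x := fun x => by
    rcases lt_trichotomy 0 (x 2) with h | h | h
    · exact mul_nonneg h.le (hC.b_nn x h)
    · rw [← h, zero_mul]
    · have h3 := hC.b_nn (rf x) (by rw [rf_two]; linarith)
      rw [hC.b_odd] at h3
      exact mul_nonneg_of_nonpos_of_nonpos h.le (by linarith)
  have key : ∀ φ : X → ℝ, Tst φ → (∀ x, φ (rf x) = -φ x) →
      (e1 - e2 + δ) * ∫ x, P x * b x * φ x = 0 := fun φ hφ ho => by
    obtain ⟨k, hk⟩ := hφ.cont.bounded_above_of_compact_support hφ.2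
    have a0 := hC.el φ hφ.h1 ⟨k, .of_forall hk⟩ (.of_forall ho)
    have m1 := hC.hb.hl.h1_mul_tst hφ
    have m2 := hC.hP.hl.h1_mul_tst hφ
    have a1 := h1 _ m1
    have a2 := h2 _ m2
    have b1 : ip P (fun x => φ x * b x) = ∫ x, P x * b x * φ x :=
      integral_congr_ae (.of_forall fun x => by ring)
    have b2 : ip b (fun x => φ x * P x) = ∫ x, P x * b x * φ x :=
      integral_congr_ae (.of_forall fun x => by ring)
    have b3 : ∫ x, v x * P x * (φ x * b x) = ∫ x, v x * b x * (φ x * P x) :=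
      integral_congr_ae (.of_forall fun x => by ring)
    have b4 : ∫ x, ∑ i, J P b i x * wd (eX i) φ x =
        dir eX P (fun x => φ x * b x) - dir eX b fun x => φ x * P x := by
      rw [dir, dir, ← integral_sub (hC.hP.integrable_dot m1) (hC.hb.integrable_dot m2)]
      refine integral_congr_ae ?_
      filter_upwards [ae_all_iff.2 (hC.hb.hl.mul_contDiff hφ.1).2,
        ae_all_iff.2 (hC.hP.hl.mul_contDiff hφ.1).2,
        ae_all_iff.2 fun i => wd_contDiff hφ.1 (eX i)] with x c1 c2 c3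
      simp only [dot, c1, c2, c3, J, ← Finset.sum_sub_distrib]
      exact Finset.sum_congr rfl fun i _ => by ring
    simp only [qf] at a1 a2
    rw [b1] at a1
    rw [b2] at a2
    rw [b4] at a0
    linarith
  by_contra hne
  have hne' : e1 - e2 + δ ≠ 0 := fun h => hne (by linarith)
  have hz : ∀ n : ℕ, ∀ᵐ x : X, ‖x‖ ≤ n → b x = 0 := fun n => by
    obtain ⟨φ, t1, t2, t3, t4⟩ := ks_odd_tst n
    have a1 := (mul_eq_zero.1 (key φ t1 t2)).resolve_left hne'
    have a2 : ∀ᵐ x : X, 0 ≤ P x * b x * φ x := by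
      filter_upwards [ae_ne_plane] with x hx
      have b1 := mul_nonneg (hzb x) (t3 x)
      have b2 : 0 ≤ b x * φ x := by
        have b3 : x 2 * b x * (x 2 * φ x) = (x 2 * x 2) * (b x * φ x) := by ring
        rw [b3] at b1
        exact nonneg_of_mul_nonneg_right b1 (mul_self_pos.2 hx)
      rw [mul_assoc]
      exact mul_nonneg (hC.P_nn x) b2
    have a3 : Integrable fun x => P x * b x * φ x :=
      wd_int_mul (hC.hP.1.integrable_mul hC.hb.1).locallyIntegrable t1.cont t1.2
    filter_upwards [(integral_eq_zero_iff_of_nonneg_ae a2 a3).1 a1, hP, ae_ne_plane]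
      with x b1 b2 b3 b4
    have b5 : P x * b x * φ x = 0 := b1
    rw [t4 x b4] at b5
    exact (mul_eq_zero.1 ((mul_eq_zero.1 b5).resolve_right b3)).resolve_left b2.ne'
  have h0 : ip b b = 0 := by
    refine integral_eq_zero_of_ae ?_
    filter_upwards [ae_all_iff.2 hz] with x hx
    simp only [hx ⌈‖x‖⌉₊ (Nat.le_ceil _), mul_zero, Pi.zero_apply]
  rw [hC.nb] at h0
  exact one_ne_zero h0

end Crest.Agent.R335
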