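/-
R335/KS/Sum: summing the kinetic inequality over an ensemble (helper77)
-/
import Crest.Agent.R335.Blocks
import Crest.Agent.R335.T.Pot

set_option autoImplicit false
set_option linter.unusedSectionVars false
set_option linter.unusedVariables false
set_option linter.unusedSimpArgs false

noncomputable section

namespace Crest.Agent.R335

open MeasureTheory Set Filter Topology Metric
open scoped ENNReal

theorem ks_int3 {α : Type} [MeasurableSpace α] {μ : Measure α} {f g h : α → ℝ}
    (hf : Integrable f μ) (hg : Integrable g μ) (hh : Integrable h μ) :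
    ∫ x, (f x - g x + h x) ∂μ = ∫ x, f x ∂μ - ∫ x, g x ∂μ + ∫ x, h x ∂μ := by
  have h1 : Integrable (fun x => f x - g x) μ := hf.sub hg
  rw [integral_add h1 hh, integral_sub hf hg]

/-- A series that converges absolutely in `L¹`. -/
theorem ks_L1 {f : ℕ → X → ℝ} (hf : ∀ k, Integrable (f k))
    (hs : Summable fun k => ∫ x, |f k x|) :
    ∃ g : X → ℝ, Integrable g ∧ ∀ᵐ x : X, HasSum (fun k => f k x) (g x) := by
  have h1 : ∑' k, ‖(hf k).toL1 (f k)‖ₑ ≠ ∞ := by
    refine tsum_enorm_ne_top_iff_summable_norm.2 (hs.congr fun k => ?_)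
    rw [L1.norm_of_fun_eq_integral_norm]
    rfl
  refine ⟨_, L1.integrable_coeFn (∑' k, (hf k).toL1 (f k)), ?_⟩
  filter_upwards [Lp.hasSum_coeFn_tsum h1, ae_all_iff.2 fun k => (hf k).coeFn_toL1] with x hx h2
  simpa only [h2] using hx

/-- Dominated convergence for series. -/
theorem ks_dom {f B : ℕ → X → ℝ} {Bs : X → ℝ} (hf : ∀ k, AEStronglyMeasurable (f k) volume)
    (hB : ∀ k, ∀ᵐ x : X, |f k x| ≤ B k x) (hs : ∀ᵐ x : X, HasSum (fun k => B k x) (Bs x))
    (hi : Integrable Bs) :
    (∀ k, Integrable (f k)) ∧ (∀ᵐ x : X, Summable fun k => f k x) ∧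
      ∀ g : X → ℝ, (∀ᵐ x : X, HasSum (fun k => f k x) (g x)) →
        Integrable g ∧ HasSum (fun k => ∫ x, f k x) (∫ x, g x) := by
  have hB' := ae_all_iff.2 hB
  refine ⟨fun k => hi.mono' (hf k) ?_, ?_, fun g hg => ⟨hi.mono' ?_ ?_, ?_⟩⟩
  · filter_upwards [hB', hs] with x h1 h2
    exact (h1 k).trans (le_hasSum h2 k fun j _ => (abs_nonneg _).trans (h1 j))
  · filter_upwards [hB', hs] with x h1 h2
    exact h2.summable.of_norm_bounded h1
  · refine aestronglyMeasurable_of_tendsto_ae atTop
      (f := fun n x => ∑ k ∈ Finset.range n, f k x)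
      (fun n => Finset.aestronglyMeasurable_fun_sum _ fun k _ => hf k) ?_
    filter_upwards [hg] with x hx using hx.tendsto_sum_nat
  · filter_upwards [hB', hs, hg] with x h1 h2 h3
    exact h3.norm_le_of_bounded h2 h1
  · refine hasSum_integral_of_dominated_convergence B hf hB (hs.mono fun x hx => hx.summable)
      (hi.congr (hs.mono fun x hx => hx.tsum_eq.symm)) hg

/-- A weight against a series of nonnegative functions. -/
theorem ks_weight {f : ℕ → X → ℝ} {g w : X → ℝ} (hf : ∀ k, AEStronglyMeasurable (f k) volume)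
    (h0 : ∀ k, ∀ᵐ x : X, 0 ≤ f k x) (hs : ∀ᵐ x : X, HasSum (fun k => f k x) (g x))
    (hw : AEStronglyMeasurable w volume) (hi : Integrable fun x => w x * g x) :
    (∀ k, Integrable fun x => w x * f k x) ∧
      HasSum (fun k => ∫ x, w x * f k x) (∫ x, w x * g x) := by
  have hg : ∀ᵐ x : X, 0 ≤ g x := by
    filter_upwards [ae_all_iff.2 h0, hs] with x h1 h2 using h2.nonneg h1
  have h := ks_dom (f := fun k x => w x * f k x) (B := fun k x => |w x| * f k x)
    (Bs := fun x => |w x| * g x) (fun k => hw.mul (hf k))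
    (fun k => (h0 k).mono fun x hx => by rw [abs_mul, abs_of_nonneg hx])
    (hs.mono fun x hx => hx.mul_left _)
    (hi.abs.congr (hg.mono fun x hx => by simp only [abs_mul, abs_of_nonneg hx]))
  exact ⟨h.1, (h.2.2 _ (hs.mono fun x hx => hx.mul_left _)).2⟩

/-- `∂ P / P`. -/
def ksA (P : X → ℝ) (i : Fin 3) (x : X) : ℝ := wd (eX i) P x / P x

/-- Density `ρ`, half its gradient `m`, kinetic densities `t`, and the certificate inequality with
constant `c`. -/
structure Trip (P ρ : X → ℝ) (m t : Fin 3 → X → ℝ) (c : ℝ) : Prop where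
  iρ : Integrable ρ
  nn : ∀ᵐ x : X, 0 ≤ ρ x
  it : ∀ i, Integrable (t i)
  mm : ∀ i, AEStronglyMeasurable (m i) volume
  cs : ∀ i, ∀ᵐ x : X, ∀ a : ℝ, 2 * |a * m i x| ≤ a ^ 2 * ρ x + t i x
  wd : ∀ i, WD (eX i) ρ fun x => 2 * m i x
  key : (∀ i, Integrable fun x => ksA P i x ^ 2 * ρ x) →
    2 * c ≤ ∑ i, ∫ x, (t i x - 2 * (ksA P i x * m i x) + ksA P i x ^ 2 * ρ x)

variable {P ρ ρ' : X → ℝ} {m t m' t' : Fin 3 → X → ℝ} {c c' : ℝ}

theorem Trip.tnn (h : Trip P ρ m t c) (i : Fin 3) : ∀ᵐ x : X, 0 ≤ t i x :=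
  (h.cs i).mono fun x hx => by simpa using hx 0

theorem Trip.mono (h : Trip P ρ m t c) (hc : c' ≤ c) : Trip P ρ m t c' :=
  ⟨h.iρ, h.nn, h.it, h.mm, h.cs, h.wd, fun hi => le_trans (by linarith) (h.key hi)⟩

theorem Trip.int_mul (h : Trip P ρ m t c) (i : Fin 3) {w : X → ℝ}
    (hw : AEStronglyMeasurable w volume) (hi : Integrable fun x => w x ^ 2 * ρ x) :
    Integrable fun x => w x * m i x := by
  refine (hi.add (h.it i)).mono' (hw.mul (h.mm i)) ?_
  filter_upwards [h.cs i] with x hx
  have h1 := hx (w x)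
  have h2 := abs_nonneg (w x * m i x)
  simp only [Pi.add_apply, Real.norm_eq_abs]
  linarith

theorem Trip.zero (P : X → ℝ) : Trip P (fun _ => 0) (fun _ _ => 0) (fun _ _ => 0) 0 :=
  ⟨integrable_zero _ _ _, .of_forall fun _ => le_rfl, fun _ => integrable_zero _ _ _,
    fun _ => aestronglyMeasurable_const, fun _ => .of_forall fun x a => by simp,
    fun i => by simpa using WD.zero (eX i), fun _ => by simp⟩

theorem Trip.add (hP : Measurable P) (h : Trip P ρ m t c) (h' : Trip P ρ' m' t' c') :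
    Trip P (fun x => ρ x + ρ' x) (fun i x => m i x + m' i x) (fun i x => t i x + t' i x)
      (c + c') := by
  have hA : ∀ i, Measurable (ksA P i) := fun i => (measurable_wd _ _).div hP
  refine ⟨h.iρ.add h'.iρ, ?_, fun i => (h.it i).add (h'.it i), fun i => (h.mm i).add (h'.mm i),
    fun i => ?_, fun i => ?_, fun hi => ?_⟩
  · filter_upwards [h.nn, h'.nn] with x h1 h2 using add_nonneg h1 h2
  · filter_upwards [h.cs i, h'.cs i] with x h1 h2 a
    have h3 := abs_add_le (a * m i x) (a * m' i x)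
    rw [← mul_add] at h3
    linarith [h1 a, h2 a]
  · simpa only [mul_add] using (h.wd i).add (h'.wd i)
  · have i1 : ∀ i, Integrable fun x => ksA P i x ^ 2 * ρ x := fun i => by
      refine (hi i).mono' (((hA i).pow_const 2).aestronglyMeasurable.mul h.iρ.1) ?_
      filter_upwards [h.nn, h'.nn] with x h1 h2
      rw [Real.norm_of_nonneg (mul_nonneg (sq_nonneg _) h1)]
      exact mul_le_mul_of_nonneg_left (by linarith) (sq_nonneg _)
    have i2 : ∀ i, Integrable fun x => ksA P i x ^ 2 * ρ' x := fun i => by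
      refine (hi i).mono' (((hA i).pow_const 2).aestronglyMeasurable.mul h'.iρ.1) ?_
      filter_upwards [h.nn, h'.nn] with x h1 h2
      rw [Real.norm_of_nonneg (mul_nonneg (sq_nonneg _) h2)]
      exact mul_le_mul_of_nonneg_left (by linarith) (sq_nonneg _)
    have k1 := h.key i1
    have k2 := h'.key i2
    rw [mul_add]
    refine (add_le_add k1 k2).trans (le_of_eq ?_)
    rw [← Finset.sum_add_distrib]
    refine Finset.sum_congr rfl fun i _ => ?_
    rw [← integral_add]
    · exact integral_congr_ae (.of_forall fun x => by ring)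
    · exact ((h.it i).sub ((h.int_mul i (hA i).aestronglyMeasurable (i1 i)).const_mul 2)).add (i1 i)
    · exact ((h'.it i).sub ((h'.int_mul i (hA i).aestronglyMeasurable (i2 i)).const_mul 2)).add
        (i2 i)

theorem Trip.sum (hP : Measurable P) {κ : Type} (s : Finset κ) {ρ : κ → X → ℝ}
    {m t : κ → Fin 3 → X → ℝ} {c : κ → ℝ} (h : ∀ j, Trip P (ρ j) (m j) (t j) (c j)) :
    Trip P (fun x => ∑ j ∈ s, ρ j x) (fun i x => ∑ j ∈ s, m j i x) (fun i x => ∑ j ∈ s, t j i x)
      (∑ j ∈ s, c j) := by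
  classical
  induction s using Finset.induction_on with
  | empty => simpa only [Finset.sum_empty] using Trip.zero P
  | insert a s ha ih =>
    simp only [Finset.sum_insert ha]
    exact (h a).add hP ih

/-- The kinetic energy of an ensemble with density `P² + b²` is at least that of the pair. -/
theorem ks_kin {δ : ℝ} {P b R : X → ℝ} (hC : Cert δ P b R) (hP : Poinc δ P b) {p : ℕ → ℝ}
    (hp0 : ∀ k, 0 ≤ p k) (hp : HasSum p 1) {ρ : ℕ → X → ℝ} {m t : ℕ → Fin 3 → X → ℝ}
    (hT : ∀ k, Trip P (ρ k) (m k) (t k) δ) {S : Fin 3 → ℝ}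
    (hs : ∀ i, HasSum (fun k => p k * ∫ x, t k i x) (S i))
    (hρ : ∀ᵐ x : X, HasSum (fun k => p k * ρ k x) (P x ^ 2 + b x ^ 2)) :
    dir eX P P + dir eX b b ≤ ∑ i, S i := by
  have hA : ∀ i, Measurable (ksA P i) := fun i => (measurable_wd _ _).div hC.mP
  have mρ : ∀ k, AEStronglyMeasurable (fun x => p k * ρ k x) volume := fun k =>
    (hT k).iρ.1.const_mul _
  have nρ : ∀ k, ∀ᵐ x : X, 0 ≤ p k * ρ k x := fun k =>
    (hT k).nn.mono fun x hx => mul_nonneg (hp0 k) hx
  have iρ : Integrable fun x => P x ^ 2 + b x ^ 2 := hC.hP.1.integrable_sq.add hC.hb.1.integrable_sq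
  -- the quotient `J / P` is square integrable
  have mJ : ∀ i, Measurable fun x => J P b i x / P x := fun i =>
    ((hC.mb.mul (measurable_wd _ _)).sub (hC.mP.mul (measurable_wd _ _))).div hC.mP
  have iJ : ∀ i, Integrable fun x => (J P b i x / P x) ^ 2 := fun i =>
    hP.intJ.mono' ((mJ i).pow_const 2).aestronglyMeasurable (.of_forall fun x => by
      rw [Real.norm_of_nonneg (sq_nonneg _)]
      exact Finset.single_le_sum (f := fun i => (J P b i x / P x) ^ 2) (fun _ _ => sq_nonneg _)
        (Finset.mem_univ i))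
  have lJ : ∀ i, MemLp (fun x => J P b i x / P x) 2 volume := fun i =>
    (memLp_two_iff_integrable_sq (mJ i).aestronglyMeasurable).2 (iJ i)
  have iA : ∀ i, Integrable fun x => ksA P i x ^ 2 * (P x ^ 2 + b x ^ 2) := fun i => by
    refine ((hC.hP.2 i).2.integrable_sq.add ((lJ i).add (hC.hb.2 i).2).integrable_sq).congr ?_
    filter_upwards [hP.pos] with x hx
    simp only [Pi.add_apply, ksA, J]
    field_simp
    ring
  -- one direction
  have main : ∀ i, HasSum (fun k => p k *
      ∫ x, (t k i x - 2 * (ksA P i x * m k i x) + ksA P i x ^ 2 * ρ k x))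
      (S i - ip (wd (eX i) P) (wd (eX i) P) - ip (wd (eX i) b) (wd (eX i) b) +
        ∫ x, (J P b i x / P x) ^ 2) := fun i => by
    obtain ⟨τ, iτ, hτ⟩ := ks_L1 (f := fun k x => p k * t k i x)
      (fun k => ((hT k).it i).const_mul _) ((hs i).summable.congr fun k => by
        rw [← integral_const_mul]
        refine integral_congr_ae (((hT k).tnn i).mono fun x hx => ?_)
        exact (abs_of_nonneg (mul_nonneg (hp0 k) hx)).symm)
    -- weighted sums of the `m k`
    have hw : ∀ w : X → ℝ, AEStronglyMeasurable w volume →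
        (Integrable fun x => w x ^ 2 * (P x ^ 2 + b x ^ 2)) →
        (∀ k, Integrable fun x => w x * (p k * (2 * m k i x))) ∧
        (∀ᵐ x : X, Summable fun k => w x * (p k * (2 * m k i x))) ∧
        ∀ g : X → ℝ, (∀ᵐ x : X, HasSum (fun k => w x * (p k * (2 * m k i x))) (g x)) →
          Integrable g ∧ HasSum (fun k => ∫ x, w x * (p k * (2 * m k i x))) (∫ x, g x) := by
      intro w hw hi
      refine ks_dom (B := fun k x => w x ^ 2 * (p k * ρ k x) + p k * t k i x)
        (Bs := fun x => w x ^ 2 * (P x ^ 2 + b x ^ 2) + τ x)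
        (fun k => hw.mul ((((hT k).mm i).const_mul _).const_mul _)) (fun k => ?_) ?_ (hi.add iτ)
      · filter_upwards [(hT k).cs i] with x hx
        have h1 := mul_le_mul_of_nonneg_left (hx (w x)) (hp0 k)
        have h2 : |w x * (p k * (2 * m k i x))| = p k * (2 * |w x * m k i x|) := by
          simp only [abs_mul, abs_of_nonneg (hp0 k), abs_two]
          ring
        rw [h2]
        linarith
      · filter_upwards [hρ, hτ] with x h1 h2 using (h1.mul_left _).add h2
    obtain ⟨-, s1, s2⟩ := hw (fun _ => 1) aestronglyMeasurable_const (by simpa using iρ)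
    simp only [one_mul] at s1 s2
    have s3 : ∀ᵐ x : X, HasSum (fun k => p k * (2 * m k i x)) (∑' k, p k * (2 * m k i x)) :=
      s1.mono fun x hx => hx.hasSum
    have w1 : WD (eX i) (fun x => P x ^ 2 + b x ^ 2) fun x => ∑' k, p k * (2 * m k i x) := by
      refine ⟨iρ.locallyIntegrable, (s2 _ s3).1.locallyIntegrable, fun φ hφ => ?_⟩
      have a1 := (ks_weight mρ nρ hρ (w := fun x => fderiv ℝ φ x (eX i))
        (hφ.dcont _).aestronglyMeasurable
        ((wd_int_mul iρ.locallyIntegrable (hφ.dcont (eX i)) (hφ.dsupp _)).congr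
          (.of_forall fun x => mul_comm _ _))).2
      have a2 := ((hw φ hφ.cont.aestronglyMeasurable
        ((wd_int_mul iρ.locallyIntegrable (hφ.cont.mul hφ.cont) hφ.2.mul_left).congr
          (.of_forall fun x => by simp only [Pi.mul_apply]; ring))).2.2 _
        (s3.mono fun x hx => hx.mul_left (φ x))).2.neg
      have a3 : ∀ k, ∫ x, fderiv ℝ φ x (eX i) * (p k * ρ k x) =
          -∫ x, φ x * (p k * (2 * m k i x)) := fun k => by
        have a4 := ((hT k).wd i).const_mul (p k) |>.2.2 φ hφ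
        simpa only [mul_comm] using a4
      simp only [a3] at a1
      have a5 := a1.unique a2
      simpa only [mul_comm] using a5
    have w2 := w1.unique ((hC.hP.wd_sq i).add (hC.hb.wd_sq i))
    obtain ⟨j1, -, j2⟩ := hw (ksA P i) (hA i).aestronglyMeasurable (iA i)
    obtain ⟨j3, j4⟩ := j2
      (fun x => ksA P i x * (2 * P x * wd (eX i) P x + 2 * b x * wd (eX i) b x)) (by
        filter_upwards [s3, w2] with x h1 h2
        rw [← h2]
        exact h1.mul_left _)
    obtain ⟨j5, j6⟩ := ks_weight mρ nρ hρ (w := fun x => ksA P i x ^ 2)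
      ((hA i).pow_const 2).aestronglyMeasurable (iA i)
    have j7 := ((hs i).sub j4).add j6
    have e1 : ∀ k, p k * ∫ x, (t k i x - 2 * (ksA P i x * m k i x) + ksA P i x ^ 2 * ρ k x) =
        p k * (∫ x, t k i x) - (∫ x, ksA P i x * (p k * (2 * m k i x))) +
          ∫ x, ksA P i x ^ 2 * (p k * ρ k x) := fun k => by
      rw [← integral_const_mul, ← integral_const_mul,
        ← ks_int3 (((hT k).it i).const_mul _) (j1 k) (j5 k)]
      exact integral_congr_ae (.of_forall fun x => by ring)
    have e2 : ∫ x, (J P b i x / P x) ^ 2 =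
        ip (wd (eX i) P) (wd (eX i) P) + ip (wd (eX i) b) (wd (eX i) b) -
          (∫ x, ksA P i x * (2 * P x * wd (eX i) P x + 2 * b x * wd (eX i) b x)) +
            ∫ x, ksA P i x ^ 2 * (P x ^ 2 + b x ^ 2) := by
      have b1 : Integrable fun x => wd (eX i) P x * wd (eX i) P x :=
        (hC.hP.2 i).2.integrable_mul (hC.hP.2 i).2
      have b2 : Integrable fun x => wd (eX i) b x * wd (eX i) b x :=
        (hC.hb.2 i).2.integrable_mul (hC.hb.2 i).2
      have b3 : Integrable fun x => wd (eX i) P x * wd (eX i) P x + wd (eX i) b x * wd (eX i) b x :=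
        b1.add b2
      rw [ip, ip, ← integral_add b1 b2, ← ks_int3 b3 j3 (iA i)]
      refine integral_congr_ae ?_
      filter_upwards [hP.pos] with x hx
      simp only [Pi.add_apply, Pi.sub_apply, ksA, J]
      field_simp
      ring
    have e3 : S i - ip (wd (eX i) P) (wd (eX i) P) - ip (wd (eX i) b) (wd (eX i) b) +
        ∫ x, (J P b i x / P x) ^ 2 =
        S i - (∫ x, ksA P i x * (2 * P x * wd (eX i) P x + 2 * b x * wd (eX i) b x)) +
          ∫ x, ksA P i x ^ 2 * (P x ^ 2 + b x ^ 2) := by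
      rw [e2]
      ring
    simp only [e1]
    rw [e3]
    exact j7
  have h1 := hasSum_sum (s := Finset.univ) fun i _ => main i
  have h2 : ∀ k, p k * (2 * δ) ≤ ∑ i, p k *
      ∫ x, (t k i x - 2 * (ksA P i x * m k i x) + ksA P i x ^ 2 * ρ k x) := fun k => by
    rw [← Finset.mul_sum]
    rcases (hp0 k).eq_or_lt with h | h
    · rw [← h, zero_mul, zero_mul]
    refine mul_le_mul_of_nonneg_left ((hT k).key fun i => ?_) h.le
    have j5 := ((ks_weight mρ nρ hρ (w := fun x => ksA P i x ^ 2)
      ((hA i).pow_const 2).aestronglyMeasurable (iA i)).1 k).const_mul (p k)⁻¹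
    refine j5.congr (.of_forall fun x => ?_)
    field_simp
  have h3 := hasSum_le h2 (hp.mul_right (2 * δ)) h1
  have h4 := hP.Jle
  rw [integral_finsetSum _ fun i _ => iJ i] at h4
  rw [hC.hP.dir_eq_sum hC.hP, hC.hb.dir_eq_sum hC.hb]
  simp only [Finset.sum_add_distrib, Finset.sum_sub_distrib] at h3
  linarith

end Crest.Agent.R335
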