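/-
R335/KS/One: the certificate inequality for one function and one electron (helper77)
-/
import Crest.Agent.R335.KS.Sum

set_option autoImplicit false
set_option linter.unusedSectionVars false
set_option linter.unusedVariables false
set_option linter.unusedSimpArgs false

noncomputable section

namespace Crest.Agent.R335

open MeasureTheory Set Filter Topology Metric
open scoped ENNReal

/-- The occupation of `P` by the first electron. -/
def ksS (P : X → ℝ) (G : Z → ℝ) : ℝ := ∫ y : Y, (∫ x, P x * G (x, y)) ^ 2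

theorem ks_cs {ρ m t : ℝ} (hρ : 0 ≤ ρ) (ht : 0 ≤ t) (h : m ^ 2 ≤ ρ * t) (a : ℝ) :
    2 * |a * m| ≤ a ^ 2 * ρ + t := by
  have h1 : 0 ≤ a ^ 2 * ρ + t := by positivity
  refine (pow_le_pow_iff_left₀ (by positivity) h1 two_ne_zero).1 ?_
  rw [mul_pow, sq_abs]
  nlinarith [sq_nonneg (a ^ 2 * ρ - t), mul_le_mul_of_nonneg_left h (sq_nonneg a)]

theorem ks_one {δ : ℝ} {P b : X → ℝ} (mP : Measurable P) (hP2 : MemLp P 2 volume)
    (hP : Poinc δ P b) {G : Z → ℝ} (hG : H1 eZ G) :
    Trip P (fun x => ∫ y, G (x, y) * G (x, y))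
      (fun i x => ∫ y, G (x, y) * wd (eZ (.inl i)) G (x, y))
      (fun i x => ∫ y, wd (eZ (.inl i)) G (x, y) * wd (eZ (.inl i)) G (x, y))
      (δ * (ip G G - ksS P G / 2)) := by
  have hD : ∀ i, MemLp (wd (eZ (.inl i)) G) 2 volume := fun i => (hG.2 _).2
  have hA : ∀ i, Measurable (ksA P i) := fun i => (measurable_wd _ _).div mP
  refine ⟨(ip_prod hG.1 hG.1).1, .of_forall fun x => integral_nonneg fun y => mul_self_nonneg _,
    fun i => (ip_prod (hD i) (hD i)).1, fun i => (ip_prod hG.1 (hD i)).1.1, fun i => ?_,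
    fun i => ?_, fun hi => ?_⟩
  · filter_upwards [memLp_slice hG.1, memLp_slice (hD i)] with x h1 h2
    exact ks_cs (integral_nonneg fun y => mul_self_nonneg _)
      (integral_nonneg fun y => mul_self_nonneg _) (ip_sq_le h1 h2)
  · refine (H1.wd_bracket (b := eX) (b' := eY) hG hG i).congr (.refl _ _) ?_
    filter_upwards [memLp_slice hG.1, memLp_slice (hD i)] with x h1 h2
    rw [← integral_const_mul]
    refine integral_congr_ae (.of_forall fun y => ?_)
    change wd (eZ (.inl i)) G (x, y) * G (x, y) + G (x, y) * wd (eZ (.inl i)) G (x, y) = _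
    ring
  · -- the functions `∂G - G a`
    have hGa : ∀ i, MemLp (fun p : Z => G p * ksA P i p.1) 2 volume := fun i => by
      have m1 : AEStronglyMeasurable (fun p : Z => G p * ksA P i p.1) volume :=
        hG.1.1.mul ((hA i).comp measurable_fst).aestronglyMeasurable
      rw [memLp_two_iff_integrable_sq m1]
      have m2 : AEStronglyMeasurable (fun p : Z => (G p * ksA P i p.1) ^ 2)
          ((volume : Measure X).prod (volume : Measure Y)) := m1.pow 2
      refine (integrable_prod_iff m2).2 ⟨?_, (hi i).congr ?_⟩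
      · filter_upwards [memLp_slice hG.1] with x hx
        exact (hx.mul_const (ksA P i x)).integrable_sq
      · refine .of_forall fun x => ?_
        simp only
        rw [← integral_const_mul]
        refine integral_congr_ae (.of_forall fun y => ?_)
        simp only [Real.norm_eq_abs, abs_pow, sq_abs]
        ring
    have hE : ∀ i, MemLp (fun p : Z => wd (eZ (.inl i)) G p - G p * ksA P i p.1) 2 volume :=
      fun i => (hD i).sub (hGa i)
    have e1 : ∀ i, ∫ x, ((∫ y, wd (eZ (.inl i)) G (x, y) * wd (eZ (.inl i)) G (x, y)) -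
        2 * (ksA P i x * ∫ y, G (x, y) * wd (eZ (.inl i)) G (x, y)) +
          ksA P i x ^ 2 * ∫ y, G (x, y) * G (x, y)) =
        ∫ y : Y, ∫ x, (wd (eZ (.inl i)) G (x, y) - G (x, y) * ksA P i x) *
          (wd (eZ (.inl i)) G (x, y) - G (x, y) * ksA P i x) := fun i => by
      rw [← (ip_prod' (hE i) (hE i)).2, (ip_prod (hE i) (hE i)).2]
      refine integral_congr_ae ?_
      filter_upwards [memLp_slice hG.1, memLp_slice (hD i)] with x h1 h2
      have b1 : Integrable fun y => wd (eZ (.inl i)) G (x, y) * wd (eZ (.inl i)) G (x, y) :=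
        h2.integrable_mul h2
      have b2 : Integrable fun y => G (x, y) * wd (eZ (.inl i)) G (x, y) := h1.integrable_mul h2
      have b3 : Integrable fun y => G (x, y) * G (x, y) := h1.integrable_mul h1
      rw [← integral_const_mul, ← integral_const_mul, ← integral_const_mul,
        ← ks_int3 b1 ((b2.const_mul _).const_mul _) (b3.const_mul _)]
      exact integral_congr_ae (.of_forall fun y => by ring)
    simp only [e1]
    rw [← integral_finsetSum _ fun i _ => (ip_prod' (hE i) (hE i)).1]
    have i1 := (ip_prod' hG.1 hG.1).1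
    have i2 := (memLp_partial' hP2 hG.1).1.integrable_sq
    have e2 : 2 * (δ * (ip G G - ksS P G / 2)) =
        ∫ y : Y, 2 * (δ * ((∫ x, G (x, y) * G (x, y)) - (∫ x, P x * G (x, y)) ^ 2 / 2)) := by
      rw [integral_const_mul, integral_const_mul, integral_sub i1 (i2.div_const 2), integral_div,
        (ip_prod' hG.1 hG.1).2, ksS]
    rw [e2]
    refine integral_mono_ae (((i1.sub (i2.div_const 2)).const_mul δ).const_mul 2)
      (integrable_finsetSum _ fun i _ => (ip_prod' (hE i) (hE i)).1) ?_
    filter_upwards [H1.slice_left (b := eX) (b' := eY) hG,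
      ae_all_iff.2 fun i => memLp_slice' (hE i)] with y h1 h2
    have e3 : Dsq P (fun x => G (x, y)) =ᵐ[volume] fun x =>
        ∑ i, (wd (eZ (.inl i)) G (x, y) - G (x, y) * ksA P i x) *
          (wd (eZ (.inl i)) G (x, y) - G (x, y) * ksA P i x) := by
      filter_upwards [ae_all_iff.2 h1.2] with x hx
      refine Finset.sum_congr rfl fun i _ => ?_
      rw [hx i, ksA]
      change (wd (eZ (.inl i)) G (x, y) - _) ^ 2 = _
      ring
    have i3 : ∀ i, Integrable fun x => (wd (eZ (.inl i)) G (x, y) - G (x, y) * ksA P i x) *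
        (wd (eZ (.inl i)) G (x, y) - G (x, y) * ksA P i x) := fun i => (h2 i).integrable_mul (h2 i)
    have h3 := hP.main _ h1.1 ((integrable_finsetSum _ fun i _ => i3 i).congr e3.symm)
    rw [integral_congr_ae e3, integral_finsetSum _ fun i _ => i3 i] at h3
    simp only [ip] at h3
    linarith

end Crest.Agent.R335
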