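/-
R335/KS/Pauli: Pauli's principle; one component, one state (helper77)
-/
import Crest.Agent.R335.KS.One

set_option autoImplicit false
set_option linter.unusedSectionVars false
set_option linter.unusedVariables false
set_option linter.unusedSimpArgs false

noncomputable section

namespace Crest.Agent.R335

open MeasureTheory Set Filter Topology Metric
open scoped ENNReal
open Crest.MathPhysics.ThreeBody

variable {P : X → ℝ} {F : Z → ℝ}

theorem ks_memLp {T : Z → Z} (hT : Sym eZ eZ T) (hF : MemLp F 2 volume) :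
    MemLp (fun p => F (T p)) 2 volume := hF.comp_measurePreserving hT.mp

theorem ksS_le (hP : MemLp P 2 volume) (nP : ip P P = 2) (hF : MemLp F 2 volume) :
    ksS P F ≤ 2 * ip F F := by
  have h := (memLp_partial' hP hF).2.2
  rwa [nP] at h

theorem ksS_swap (P : X → ℝ) (F : Z → ℝ) : ksS P (fun p => F (p.1, p.2.swap)) = ksS P F :=
  sym_swap.integral fun y : Y => (∫ x, P x * F (x, y)) ^ 2

theorem ks_pauli23 (hP : MemLp P 2 volume) (nP : ip P P = 2) (hF : MemLp F 2 volume)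
    (ha : Anti23 F) : ksS P (fun p => F (p.2.1, (p.1, p.2.2))) +
      ksS P (fun p => F (p.2.1, (p.2.2, p.1))) ≤ 2 * ip F F := by
  have i1 : Integrable (fun y : Y => (∫ x, P x * F (y.1, (x, y.2))) ^ 2)
      ((volume : Measure X).prod volume) :=
    (memLp_partial' hP (ks_memLp sym_12 hF)).1.integrable_sq
  have i2 : Integrable (fun y : Y => (∫ x, P x * F (y.1, (y.2, x))) ^ 2)
      ((volume : Measure X).prod volume) :=
    (memLp_partial' hP (ks_memLp sym_cyc hF)).1.integrable_sq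
  have e1 : ksS P (fun p => F (p.2.1, (p.1, p.2.2))) =
      ∫ w : X, ∫ z : X, (∫ x, P x * F (w, (x, z))) ^ 2 := integral_prod _ i1
  have e2 : ksS P (fun p => F (p.2.1, (p.2.2, p.1))) =
      ∫ w : X, ∫ z : X, (∫ x, P x * F (w, (z, x))) ^ 2 := integral_prod _ i2
  rw [e1, e2, ← integral_add i1.integral_prod_left i2.integral_prod_left, (ip_prod hF hF).2,
    ← integral_const_mul]
  refine integral_mono_ae (i1.integral_prod_left.add i2.integral_prod_left)
    ((ip_prod hF hF).1.const_mul 2) ?_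
  filter_upwards [memLp_slice hF] with w hw
  have s2 : (√2 : ℝ)⁻¹ * (√2 : ℝ)⁻¹ = 1 / 2 := by
    rw [← mul_inv, Real.mul_self_sqrt zero_le_two, one_div]
  have hn : ip (fun x => (√2 : ℝ)⁻¹ * P x) (fun x => (√2 : ℝ)⁻¹ * P x) = 1 := by
    have : ip (fun x => (√2 : ℝ)⁻¹ * P x) (fun x => (√2 : ℝ)⁻¹ * P x) = 1 / 2 * ip P P := by
      rw [ip, ip, ← integral_const_mul, ← s2]
      exact integral_congr_ae (.of_forall fun x => by ring)
    rw [this, nP]
    norm_num
  have hb := bessel_prod (κ := Unit) (κ' := Unit) (φ := fun _ x => (√2 : ℝ)⁻¹ * P x)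
    (Φ := fun _ x => (√2 : ℝ)⁻¹ * P x) (fun _ => hP.const_mul _) (fun _ => hP.const_mul _)
    (fun _ _ => by simpa using hn) (fun _ _ => by simpa using hn) hw
  have h0 : ip (fun p : X × X => (√2 : ℝ)⁻¹ * P p.1 * ((√2 : ℝ)⁻¹ * P p.2))
      (fun y => F (w, y)) = 0 := by
    have h1 := sym_swap.integral
      fun p : Y => (√2 : ℝ)⁻¹ * P p.1 * ((√2 : ℝ)⁻¹ * P p.2) * F (w, p)
    have h2 : ∫ p : Y, (√2 : ℝ)⁻¹ * P p.swap.1 * ((√2 : ℝ)⁻¹ * P p.swap.2) * F (w, p.swap) =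
        -∫ p : Y, (√2 : ℝ)⁻¹ * P p.1 * ((√2 : ℝ)⁻¹ * P p.2) * F (w, p) := by
      rw [← integral_neg]
      refine integral_congr_ae (.of_forall fun p => ?_)
      have h3 : F (w, p.swap) = -F (w, p) := ha w p.1 p.2
      simp only [h3, Prod.fst_swap, Prod.snd_swap]
      ring
    rw [ip]
    linarith
  simp only [Finset.univ_unique, Finset.sum_singleton, h0] at hb
  have e3 : ∀ f : X → ℝ, (∫ x, (√2 : ℝ)⁻¹ * P x * f x) ^ 2 = 1 / 2 * (∫ x, P x * f x) ^ 2 := by
    intro f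
    simp only [mul_assoc]
    rw [integral_const_mul, mul_pow, sq (√2 : ℝ)⁻¹, s2]
  simp only [e3, integral_const_mul, ip] at hb
  linarith

theorem ks_pauli (hP : MemLp P 2 volume) (nP : ip P P = 2) (hF : MemLp F 2 volume)
    (ha : Anti12 F ∨ Anti13 F ∨ Anti23 F) : ksS P F + ksS P (fun p => F (p.2.1, (p.1, p.2.2))) +
      ksS P (fun p => F (p.2.1, (p.2.2, p.1))) ≤ 4 * ip F F := by
  rcases ha with ha | ha | ha
  · have h1 := ks_pauli23 hP nP (ks_memLp sym_13 hF) fun x y z => ha z y x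
    have h2 := ksS_le hP nP (ks_memLp sym_cyc hF)
    rw [sym_13.ip F F] at h1
    rw [sym_cyc.ip F F] at h2
    have h3 := ksS_swap P F
    have h4 := ksS_swap P fun p => F (p.2.1, (p.1, p.2.2))
    simp only [Prod.fst_swap, Prod.snd_swap, Prod.swap] at h1 h3 h4
    linarith
  · have h1 := ks_pauli23 hP nP (ks_memLp sym_12 hF) fun x y z => ha y x z
    have h2 := ksS_le hP nP (ks_memLp sym_12 hF)
    rw [sym_12.ip F F] at h1 h2
    have h4 := ksS_swap P fun p => F (p.2.1, (p.2.2, p.1))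
    simp only [Prod.fst_swap, Prod.snd_swap, Prod.swap] at h1 h4
    have h5 : (fun p : Z => F (p.1, p.2.1, p.2.2)) = F := rfl
    rw [h5] at h1
    linarith
  · have h1 := ks_pauli23 hP nP hF ha
    have h2 := ksS_le hP nP hF
    linarith

theorem ks_wd_sym {T : Z → Z} (hT : Sym eZ eZ T) (hF : H1 eZ F) {i j : Fin 3 ⊕ (Fin 3 ⊕ Fin 3)}
    (h : T (eZ i) = eZ j) :
    wd (eZ i) (fun p => F (T p)) =ᵐ[volume] fun p => wd (eZ j) F (T p) := by
  obtain ⟨L, σ, s, h1, h2, -⟩ := hT.ex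
  have h3 := WD.comp_equiv L h2 (v := eZ i) (f := F) (g := wd (eZ j) F) (by
    rw [h1, h]; exact (hF.2 j).1)
  simp only [h1] at h3
  exact h3.wd_ae

theorem ks_ip_wd_sym {T : Z → Z} (hT : Sym eZ eZ T) (hF : H1 eZ F)
    {i j : Fin 3 ⊕ (Fin 3 ⊕ Fin 3)} (h : T (eZ i) = eZ j) :
    ip (wd (eZ i) fun p => F (T p)) (wd (eZ i) fun p => F (T p)) =
      ip (wd (eZ j) F) (wd (eZ j) F) := by
  rw [← hT.ip (wd (eZ j) F) (wd (eZ j) F)]
  refine integral_congr_ae ?_
  filter_upwards [ks_wd_sym hT hF h] with p hp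
  rw [hp]

theorem ks_pot {v : X → ℝ} (hv : IsSumClassPotential v) (hF : H1 eZ F) :
    (Integrable fun x => v x * ∫ y, F (x, y) * F (x, y)) ∧
      ∫ p : Z, v p.1 * F p * F p = ∫ x, v x * ∫ y, F (x, y) * F (x, y) := by
  have i1 : Integrable (fun p : Z => v p.1 * F p * F p) ((volume : Measure X).prod volume) :=
    (sumClass_integrable3 hv hF hF).1
  have e1 : ∀ x, ∫ y, v x * F (x, y) * F (x, y) = v x * ∫ y, F (x, y) * F (x, y) := fun x => by
    simp only [mul_assoc]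
    exact integral_const_mul _ _
  refine ⟨i1.integral_prod_left.congr (.of_forall e1), ?_⟩
  have e2 : ∫ p : Z, v p.1 * F p * F p = ∫ x, ∫ y, v x * F (x, y) * F (x, y) := integral_prod _ i1
  simp only [e2, e1]

theorem ks_den (hF : MemLp F 2 volume) : ∀ᵐ x : X,
    ∫⁻ y : Y, ENNReal.ofReal (F (x, y) ^ 2) = ENNReal.ofReal (∫ y, F (x, y) * F (x, y)) := by
  filter_upwards [memLp_slice hF] with x hx
  have h1 : Integrable fun y => F (x, y) * F (x, y) := hx.integrable_mul hx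
  rw [ofReal_integral_eq_lintegral_ofReal h1 (.of_forall fun y => mul_self_nonneg _)]
  simp only [sq]

theorem ks_add3 {α : Type} [MeasurableSpace α] {μ : Measure α} {f g h : α → ℝ}
    (hf : Integrable f μ) (hg : Integrable g μ) (hh : Integrable h μ) :
    ∫ x, (f x + g x + h x) ∂μ = ∫ x, f x ∂μ + ∫ x, g x ∂μ + ∫ x, h x ∂μ := by
  have h1 : Integrable (fun x => f x + g x) μ := hf.add hg
  rw [integral_add h1 hh, integral_add hf hg]

/-- One component. -/
theorem ks_comp {δ : ℝ} {b : X → ℝ} (hδ : 0 ≤ δ) (mP : Measurable P) (hP2 : MemLp P 2 volume)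
    (nP : ip P P = 2) (hP : Poinc δ P b) {v : X → ℝ} (hv : IsSumClassPotential v) (hF : H1 eZ F)
    (ha : Anti12 F ∨ Anti13 F ∨ Anti23 F) :
    ∃ (ρ : X → ℝ) (m t : Fin 3 → X → ℝ), Trip P ρ m t (δ * ip F F) ∧
      (∀ᵐ x : X, den F x = ENNReal.ofReal (ρ x)) ∧ (Integrable fun x => v x * ρ x) ∧
      qf eZ (v3 v) F F = (∑ i, ∫ x, t i x) / 2 + ∫ x, v x * ρ x := by
  have h2 := sym_12.h1 hF
  have h3 := sym_cyc.h1 hF
  have t1 := ks_one mP hP2 hP hF
  have t2 := ks_one mP hP2 hP h2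
  have t3 := ks_one mP hP2 hP h3
  have p1 := ks_pot hv hF
  have p2 := ks_pot hv h2
  have p3 := ks_pot hv h3
  refine ⟨_, _, _, ((t1.add mP t2).add mP t3).mono ?_, ?_, ?_, ?_⟩
  · rw [sym_12.ip F F, sym_cyc.ip F F]
    have h4 := mul_le_mul_of_nonneg_left (ks_pauli hP2 nP hF.1 ha) hδ
    linarith
  · filter_upwards [ks_den hF.1, ks_den h2.1, ks_den h3.1, t1.nn, t2.nn, t3.nn]
      with x a1 a2 a3 b1 b2 b3
    rw [ENNReal.ofReal_add (add_nonneg b1 b2) b3, ENNReal.ofReal_add b1 b2, ← a1, ← a2, ← a3]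
    rfl
  · simp only [mul_add]
    exact (p1.1.add p2.1).add p3.1
  · obtain ⟨i1, i2, i3⟩ := sumClass_integrable3 hv hF hF
    rw [qf]
    congr 1
    · congr 1
      rw [hF.dir_eq_sum hF, Fintype.sum_sum_type, Fintype.sum_sum_type, ← add_assoc,
        ← Finset.sum_add_distrib, ← Finset.sum_add_distrib]
      refine Finset.sum_congr rfl fun i _ => ?_
      rw [ks_add3 (t1.it i) (t2.it i) (t3.it i),
        ← (ip_prod (hF.2 _).2 (hF.2 _).2).2, ← (ip_prod (h2.2 _).2 (h2.2 _).2).2,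
        ← (ip_prod (h3.2 _).2 (h3.2 _).2).2,
        ks_ip_wd_sym sym_12 hF (i := .inl i) (j := .inr (.inl i)) rfl,
        ks_ip_wd_sym sym_cyc hF (i := .inl i) (j := .inr (.inr i)) rfl]
    · simp only [v3, add_mul, mul_add]
      rw [ks_add3 i1 i2 i3, ks_add3 p1.1 p2.1 p3.1,
        ← p1.2, ← p2.2, ← p3.2, ← sym_12.integral fun p : Z => v p.2.1 * F p * F p,
        ← sym_cyc.integral fun p : Z => v p.2.2 * F p * F p]

/-- One state. -/
theorem ks_state {δ : ℝ} {b : X → ℝ} (hδ : 0 ≤ δ) (mP : Measurable P) (hP2 : MemLp P 2 volume)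
    (nP : ip P P = 2) (hP : Poinc δ P b) {v : X → ℝ} (hv : IsSumClassPotential v)
    {κ : Type} [Fintype κ] {F : κ → Z → ℝ} (hF : ∀ j, H1 eZ (F j))
    (ha : ∀ j, Anti12 (F j) ∨ Anti13 (F j) ∨ Anti23 (F j)) (hn : ∑ j, ip (F j) (F j) = 1) :
    ∃ (ρ : X → ℝ) (m t : Fin 3 → X → ℝ), Trip P ρ m t δ ∧
      (∀ᵐ x : X, ∑ j, den (F j) x = ENNReal.ofReal (ρ x)) ∧
      ∑ j, qf eZ (v3 v) (F j) (F j) = (∑ i, ∫ x, t i x) / 2 + ∫ x, v x * ρ x := by
  choose ρ m t h1 h2 h3 h4 using fun j => ks_comp hδ mP hP2 nP hP hv (hF j) (ha j)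
  refine ⟨_, _, _, (Trip.sum mP Finset.univ h1).mono ?_, ?_, ?_⟩
  · rw [← Finset.mul_sum, hn, mul_one]
  · filter_upwards [ae_all_iff.2 h2, ae_all_iff.2 fun j => (h1 j).nn] with x a1 a2
    rw [ENNReal.ofReal_sum_of_nonneg fun j _ => a2 j]
    exact Finset.sum_congr rfl fun j _ => a1 j
  · simp only [h4, Finset.mul_sum]
    rw [Finset.sum_add_distrib, integral_finsetSum _ fun j _ => h3 j, ← Finset.sum_div,
      Finset.sum_comm]
    congr 2
    exact Finset.sum_congr rfl fun i _ => (integral_finsetSum _ fun j _ => (h1 j).it i).symm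

end Crest.Agent.R335
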