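/-
R335/KS/Main: block KS (see R335/Notes)
Skeleton by helper48 (row 335); keep the statements unchanged, add any helper lemmas you like.
-/
import Crest.Agent.R335.KS.Pauli
import Crest.Agent.R335.KS.Var
import Crest.Agent.R335.KS.Gap

set_option autoImplicit false
set_option linter.unusedSectionVars false
set_option linter.unusedVariables false
set_option linter.unusedSimpArgs false

noncomputable section

namespace Crest.Agent.R335

open MeasureTheory Set Filter Topology Metric
open scoped ENNReal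
open Crest.MathPhysics.ThreeBody

theorem ks_hasSum {p r : ℕ → ℝ} {s : ℝ} (hp : ∀ k, 0 ≤ p k) (hr : ∀ k, 0 ≤ r k) (hs : 0 ≤ s)
    (h : ENNReal.ofReal s = ∑' k, ENNReal.ofReal (p k) * ENNReal.ofReal (r k)) :
    HasSum (fun k => p k * r k) s := by
  have h1 := ENNReal.hasSum_toReal (f := fun k => ENNReal.ofReal (p k) * ENNReal.ofReal (r k))
    (h ▸ ENNReal.ofReal_ne_top)
  have h2 := ENNReal.tsum_toReal_eq (f := fun k => ENNReal.ofReal (p k) * ENNReal.ofReal (r k))
    fun k => ENNReal.mul_ne_top ENNReal.ofReal_ne_top ENNReal.ofReal_ne_top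
  rw [← h2, ← h, ENNReal.toReal_ofReal hs] at h1
  simpa only [ENNReal.toReal_mul, ENNReal.toReal_ofReal (hp _), ENNReal.toReal_ofReal (hr _)]
    using h1

/-- The determinant of the certificate minimises the noninteracting form. -/
theorem ks_min {v : X → ℝ} {p : ℕ → ℝ} {F : ℕ → (Fin 3 → Fin 2) × Bool → Z → ℝ}
    {ρ P b R : X → ℝ} {δ : ℝ} (hv : IsSumClassPotential v) (hC : Cert δ P b R) (hδ : 0 ≤ δ)
    (hP : Poinc δ P b) (hE : Ens v p F ρ) (hR : ∀ᵐ x : X, R x ^ 2 = ρ x) (B : Z → ℝ)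
    (hB : H1 eZ B) (ha : Anti12 B) (hn : ip B B = 1) :
    qf eX v P P + qf eX v b b ≤ qf eZ (v3 v) B B := by
  choose r m t h1 h2 h3 using fun k =>
    ks_state hδ hC.mP hC.hP.1 hC.nP hP hv (hE.h1 k) (hE.anti k) (hE.nrm k)
  have hρ : ∀ᵐ x : X, HasSum (fun k => p k * r k x) (P x ^ 2 + b x ^ 2) := by
    filter_upwards [hE.dens, hR, hC.sq, ae_all_iff.2 h2, ae_all_iff.2 fun k => (h1 k).nn]
      with x a1 a2 a3 a4 a5
    refine ks_hasSum hE.nn a5 (by positivity) ?_
    rw [a3, a2, a1]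
    simp only [a4]
  have i1 := sumClass_integrable hv hC.hP hC.hP
  have i2 := sumClass_integrable hv hC.hb hC.hb
  have mv : AEStronglyMeasurable v volume := by
    obtain ⟨v1, v2, rfl, b1, b2⟩ := hv
    exact b1.1.add b2.1
  have hV := (ks_weight (fun k => (h1 k).iρ.1.const_mul (p k))
    (fun k => (h1 k).nn.mono fun x hx => mul_nonneg (hE.nn k) hx) hρ mv
    ((i1.add i2).congr (.of_forall fun x => by simp only [Pi.add_apply]; ring))).2
  have eV : ∫ x, v x * (P x ^ 2 + b x ^ 2) = (∫ x, v x * P x * P x) + ∫ x, v x * b x * b x := by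
    rw [← integral_add i1 i2]
    exact integral_congr_ae (.of_forall fun x => by ring)
  have hb := ((hE.sum.mul_right (qf eZ (v3 v) B B)).sub hV).mul_left 2
  have hle : ∀ k, ∑ i, p k * ∫ x, t k i x ≤
      2 * (p k * qf eZ (v3 v) B B - ∫ x, v x * (p k * r k x)) := fun k => by
    have a1 := mul_le_mul_of_nonneg_left (hE.min k B hB ha hn) (hE.nn k)
    have a2 : ∫ x, v x * (p k * r k x) = p k * ∫ x, v x * r k x := by
      rw [← integral_const_mul]
      exact integral_congr_ae (.of_forall fun x => by ring)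
    rw [h3 k] at a1
    rw [a2, ← Finset.mul_sum]
    linarith
  have h0 : ∀ k i, 0 ≤ p k * ∫ x, t k i x := fun k i =>
    mul_nonneg (hE.nn k) (integral_nonneg_of_ae ((h1 k).tnn i))
  have hs : ∀ i, HasSum (fun k => p k * ∫ x, t k i x) (∑' k, p k * ∫ x, t k i x) := fun i =>
    (Summable.of_nonneg_of_le (fun k => h0 k i) (fun k =>
      (Finset.single_le_sum (fun j _ => h0 k j) (Finset.mem_univ i)).trans (hle k))
      hb.summable).hasSum
  have k1 := ks_kin hC hP hE.nn hE.sum h1 hs hρ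
  have k2 := hasSum_le hle (hasSum_sum fun i _ => hs i) hb
  rw [eV] at k2
  simp only [qf] at k2 ⊢
  linarith

theorem stKS : StKS := by
  intro v p F ρ δ P b R hv hC hδ hP hE hR
  have ho : ip P b = 0 := integral_odd (.of_forall fun x => by
    rw [hC.P_even, hC.b_odd, mul_neg])
  obtain ⟨e1, e2, h1, h2⟩ := ks_eig hv hC.hP hC.hb hC.nP hC.nb ho (ks_min hv hC hδ hP hE hR)
  exact ⟨e1, h1, ks_gap hv hC hP.pos h1 h2 ▸ h2⟩

end Crest.Agent.R335
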